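import Vale.Agent.P254o.OCore
import Vale.Agent.P254o.OBall
import Vale.Agent.P254.NS
import Vale.Agent.P254.Ext

/-!
P254, Musielak-Orlicz balls: the main theorem.
-/

namespace Vale.Agent.P254o

open MeasureTheory
open scoped ENNReal
open Vale.Agent.P254 (isoConst cov posPart IsSimplex)

theorem main (n : ℕ) (hn : 2 ≤ n) {φ : Fin n → ℝ → ℝ} (h : Orl φ) :
    isoConst (Ball φ) ^ 2 ≤ ((n : ℝ) + 1) / (8 * ((n : ℝ) + 2)) ∧
      isoConst (Ball φ) < isoConst (Vale.Agent.P254.simplex n) := by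
  refine Vale.Agent.P254.NS.main_of_L1 n hn (ball_convex h) (ball_compact h) (ball_interior h)
    (fun s x hx => ball_sign φ s hx) ?_
  obtain ⟨m, rfl⟩ : ∃ m, n = m + 1 := ⟨n - 1, by omega⟩
  have h1 := core m h 1
  rw [posPart_ball]
  exact h1

theorem fin (n : ℕ) (hn : 2 ≤ n) {φ : Fin n → ℝ → ℝ} (h : Orl φ)
    (T : (Fin n → ℝ) ≃ᵃ[ℝ] (Fin n → ℝ)) (S : Set (Fin n → ℝ)) (hS : IsSimplex S) :
    isoConst (T '' Ball φ) ^ 2 ≤ ((n : ℝ) + 1) / (8 * ((n : ℝ) + 2)) ∧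
      isoConst (T '' Ball φ) < isoConst S := by
  obtain ⟨h1, h2⟩ := main n hn h
  refine ⟨Vale.Agent.P254.sq_affine (ball_compact h) (ball_interior h) h1 T,
    Vale.Agent.P254.ext_affine (ball_compact h) (ball_interior h) ?_ h2 T hS⟩
  rw [Vale.Agent.P254.simplex_vol]
  positivity

end Vale.Agent.P254o
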