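import Vale.Agent.P254.NS
import Vale.Agent.P254o.Orl
import Vale.Agent.P254o.LC

/-!
P254, Musielak-Orlicz balls: the centroid is monotone in the level.
-/

namespace Vale.Agent.P254o

open MeasureTheory
open scoped ENNReal
open Vale.Agent.P254 (sec A)
open Vale.Agent.P254.NS (AC)

namespace Mon

/-- rearrangement -/
theorem rearr {s t X Y : ℝ≥0∞} (hst : s ≤ t) (hXY : X ≤ Y) : t * X + s * Y ≤ t * Y + s * X := by
  obtain ⟨d, rfl⟩ := exists_add_of_le hst
  calc (s + d) * X + s * Y = s * X + s * Y + d * X := by ring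
    _ ≤ s * X + s * Y + d * Y := by gcongr
    _ = (s + d) * Y + s * X := by ring

theorem half {x y : ℝ≥0∞} (h : x + x ≤ y + y) : x ≤ y := by
  rw [← two_mul, ← two_mul] at h
  exact (ENNReal.mul_le_mul_iff_right (by simp) (by simp)).1 h

/-- the one-dimensional inequality -/
theorem oned {f g : ℝ → ℝ≥0∞} (hf : Measurable f) (hg : Measurable g)
    (hf0 : ∀ t < 0, f t = 0) (hg0 : ∀ t < 0, g t = 0)
    (hfg : ∀ s t : ℝ, 0 ≤ s → s ≤ t → f t * g s ≤ g t * f s) :
    (∫⁻ t, ENNReal.ofReal t * f t) * (∫⁻ t, g t) ≤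
      (∫⁻ t, ENNReal.ofReal t * g t) * (∫⁻ t, f t) := by
  have ho : Measurable fun t : ℝ => ENNReal.ofReal t := ENNReal.measurable_ofReal
  have htf : Measurable fun t : ℝ => ENNReal.ofReal t * f t := ho.mul hf
  have htg : Measurable fun t : ℝ => ENNReal.ofReal t * g t := ho.mul hg
  apply half
  have e1 := lintegral_prod_mul (μ := (volume : Measure ℝ)) (ν := (volume : Measure ℝ))
    htf.aemeasurable hg.aemeasurable
  have e2 := lintegral_prod_mul (μ := (volume : Measure ℝ)) (ν := (volume : Measure ℝ))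
    hg.aemeasurable htf.aemeasurable
  have e3 := lintegral_prod_mul (μ := (volume : Measure ℝ)) (ν := (volume : Measure ℝ))
    htg.aemeasurable hf.aemeasurable
  have e4 := lintegral_prod_mul (μ := (volume : Measure ℝ)) (ν := (volume : Measure ℝ))
    hf.aemeasurable htg.aemeasurable
  have m1 : Measurable fun z : ℝ × ℝ => ENNReal.ofReal z.1 * f z.1 * g z.2 :=
    (htf.comp measurable_fst).mul (hg.comp measurable_snd)
  have m3 : Measurable fun z : ℝ × ℝ => ENNReal.ofReal z.1 * g z.1 * f z.2 :=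
    (htg.comp measurable_fst).mul (hf.comp measurable_snd)
  calc (∫⁻ t, ENNReal.ofReal t * f t) * (∫⁻ t, g t) +
        (∫⁻ t, ENNReal.ofReal t * f t) * (∫⁻ t, g t)
      = (∫⁻ z, ENNReal.ofReal z.1 * f z.1 * g z.2 ∂(volume.prod volume)) +
        ∫⁻ z, g z.1 * (ENNReal.ofReal z.2 * f z.2) ∂(volume.prod volume) := by
          rw [e1, e2]
          ring
    _ = ∫⁻ z, (ENNReal.ofReal z.1 * f z.1 * g z.2 + g z.1 * (ENNReal.ofReal z.2 * f z.2))
          ∂(volume.prod volume) := (lintegral_add_left m1 _).symm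
    _ ≤ ∫⁻ z, (ENNReal.ofReal z.1 * g z.1 * f z.2 + f z.1 * (ENNReal.ofReal z.2 * g z.2))
          ∂(volume.prod volume) := by
          refine lintegral_mono fun z => ?_
          obtain ⟨a, b⟩ := z
          simp only
          rcases lt_or_ge a 0 with ha | ha
          · simp [hf0 a ha, hg0 a ha]
          rcases lt_or_ge b 0 with hb | hb
          · simp [hf0 b hb, hg0 b hb]
          rcases le_total a b with hab | hab
          · have h1 := hfg a b ha hab
            have h2 := rearr (ENNReal.ofReal_le_ofReal hab) h1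
            calc ENNReal.ofReal a * f a * g b + g a * (ENNReal.ofReal b * f b)
                = ENNReal.ofReal b * (f b * g a) + ENNReal.ofReal a * (g b * f a) := by ring
              _ ≤ ENNReal.ofReal b * (g b * f a) + ENNReal.ofReal a * (f b * g a) := h2
              _ = ENNReal.ofReal a * g a * f b + f a * (ENNReal.ofReal b * g b) := by ring
          · have h1 := hfg b a hb hab
            have h2 := rearr (ENNReal.ofReal_le_ofReal hab) h1
            calc ENNReal.ofReal a * f a * g b + g a * (ENNReal.ofReal b * f b)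
                = ENNReal.ofReal a * (f a * g b) + ENNReal.ofReal b * (g a * f b) := by ring
              _ ≤ ENNReal.ofReal a * (g a * f b) + ENNReal.ofReal b * (f a * g b) := h2
              _ = ENNReal.ofReal a * g a * f b + f a * (ENNReal.ofReal b * g b) := by ring
    _ = (∫⁻ z, ENNReal.ofReal z.1 * g z.1 * f z.2 ∂(volume.prod volume)) +
        ∫⁻ z, f z.1 * (ENNReal.ofReal z.2 * g z.2) ∂(volume.prod volume) :=
          lintegral_add_left m3 _
    _ = (∫⁻ t, ENNReal.ofReal t * g t) * (∫⁻ t, f t) +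
        (∫⁻ t, ENNReal.ofReal t * g t) * (∫⁻ t, f t) := by
          rw [e3, e4]
          ring

theorem zero {n : ℕ} {φ : Fin (n + 1) → ℝ → ℝ} (h : Orl φ) {l l' : ℝ} (hl : l ≤ l') :
    Mo φ l 0 * V φ l' ≤ Mo φ l' 0 * V φ l := by
  have h1 : ∀ m, Mo φ m 0 = ∫⁻ t, ENNReal.ofReal t * A (Dm φ m) t := fun m =>
    Vale.Agent.P254.NS.mom_int (ac_Dm h m)
  have h2 : ∀ m, V φ m = ∫⁻ t, A (Dm φ m) t := fun m =>
    (Vale.Agent.P254.NS.A_int (ac_Dm h m)).symm
  rw [h1, h1, h2, h2]
  refine oned (Vale.Agent.P254.NS.A_meas (ac_Dm h l)) (Vale.Agent.P254.NS.A_meas (ac_Dm h l'))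
    (fun t ht => Vale.Agent.P254.NS.A_neg (ac_Dm h l) ht)
    (fun t ht => Vale.Agent.P254.NS.A_neg (ac_Dm h l') ht) ?_
  intro s t hs hst
  have hsec : ∀ m u : ℝ, 0 ≤ u →
      A (Dm φ m) u = V (fun i : Fin n => φ i.succ) (m - φ 0 u) := by
    intro m u hu
    rw [A, sec_Dm φ m hu, V]
  rw [hsec l t (hs.trans hst), hsec l' s hs, hsec l' t (hs.trans hst), hsec l s hs]
  have hm : φ 0 s ≤ φ 0 t := h.mono 0 hs (hs.trans hst) hst
  have h3 := V_logconcave (orl_succ h) (a := l - φ 0 t) (b := l - φ 0 s) (d := l' - l)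
    (by linarith) (by linarith)
  have e1 : l - φ 0 s + (l' - l) = l' - φ 0 s := by ring
  have e2 : l - φ 0 t + (l' - l) = l' - φ 0 t := by ring
  rw [e1, e2] at h3
  exact h3

end Mon

/-- the centroid of `Dm φ l` is monotone in the level `l` -/
theorem Mo_mono {n : ℕ} {φ : Fin (n + 1) → ℝ → ℝ} (h : Orl φ) {l l' : ℝ} (hl : l ≤ l')
    (j : Fin (n + 1)) : Mo φ l j * V φ l' ≤ Mo φ l' j * V φ l := by
  set σ : Equiv.Perm (Fin (n + 1)) := Equiv.swap 0 j with hσ
  have hMo : ∀ m, Mo (fun i => φ (σ i)) m 0 = Mo φ m j := by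
    intro m
    rw [Mo, Mo, int_perm φ h m σ (g := fun x => ENNReal.ofReal (x 0))
      (ENNReal.measurable_ofReal.comp (measurable_pi_apply 0))]
    simp [hσ]
  have hV : ∀ m, V (fun i => φ (σ i)) m = V φ m := by
    intro m
    have h1 := int_perm φ h m σ (g := fun _ => 1) measurable_const
    simpa [V] using h1
  have h1 := Mon.zero (orl_perm h σ) hl
  rw [hMo, hMo, hV, hV] at h1
  exact h1

end Vale.Agent.P254o
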