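import Vale.Agent.P254.NS
import Vale.Agent.P254o.Orl
import Vale.Agent.P254o.Cheb
import Vale.Agent.P254o.Mon

/-! P254o, row CORE: the product of the first moments. -/

namespace Vale.Agent.P254o

open MeasureTheory
open scoped ENNReal
open Vale.Agent.P254 (sec A)
open Vale.Agent.P254.NS

namespace OCore

/-- integrals over the sections depend measurably on the height -/
theorem meas {n : ℕ} {D : Set (Fin (n + 1) → ℝ)} (hD : MeasurableSet D)
    {g : (Fin n → ℝ) → ℝ≥0∞} (hg : Measurable g) :
    Measurable (fun t : ℝ => ∫⁻ y in sec D t, g y) := by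
  have hc : Measurable (fun p : ℝ × (Fin n → ℝ) => (Fin.cons p.1 p.2 : Fin (n + 1) → ℝ)) := by
    rw [measurable_pi_iff]
    intro i
    refine Fin.cases ?_ (fun j => ?_) i
    · simpa using measurable_fst
    · have := (measurable_pi_apply j).comp
        (measurable_snd : Measurable (Prod.snd : ℝ × (Fin n → ℝ) → (Fin n → ℝ)))
      simpa [Function.comp_def] using this
  have hs : MeasurableSet {p : ℝ × (Fin n → ℝ) | (Fin.cons p.1 p.2 : Fin (n + 1) → ℝ) ∈ D} :=
    hc hD
  have h1 : ∀ t, ∫⁻ y in sec D t, g y =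
      ∫⁻ y, Set.indicator {p : ℝ × (Fin n → ℝ) | (Fin.cons p.1 p.2 : Fin (n + 1) → ℝ) ∈ D}
        (fun p => g p.2) (t, y) := by
    intro t
    have hst : MeasurableSet (sec D t) := measurable_prodMk_left hs
    rw [← lintegral_indicator hst]
    rfl
  simp_rw [h1]
  exact ((hg.comp measurable_snd).indicator hs).lintegral_prod_right'

end OCore

theorem core (n : ℕ) : ∀ {φ : Fin (n + 1) → ℝ → ℝ}, Orl φ → ∀ l : ℝ,
    ∏ j, (2 * Mo φ l j) ≤ V φ l ^ (n + 2) := by
  induction n with
  | zero =>
    intro φ h l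
    have := zero_case (ac_Dm h l)
    simpa [Mo, V] using this
  | succ n ih =>
    intro φ h l
    have hac := ac_Dm h l
    have hfin : V φ l ≠ ∞ := hac.compact.measure_lt_top.ne
    have hneg : ∀ t < 0, A (Dm φ l) t = 0 := fun t ht => A_neg hac ht
    have hsec : ∀ t, 0 ≤ t → sec (Dm φ l) t = Dm (fun i : Fin (n + 1) => φ i.succ) (l - φ 0 t) :=
      fun t ht => sec_Dm φ l ht
    have hnull : ∀ t, A (Dm φ l) t = 0 → ∀ j : Fin (n + 1),
        2 * ∫⁻ y in sec (Dm φ l) t, ENNReal.ofReal (y j) = 0 := by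
      intro t ht j
      rw [setLIntegral_measure_zero _ _ ht, mul_zero]
    have h1 := cheb (n := n + 1) (a := A (Dm φ l)) (A_meas hac)
      (fun t => by
        rcases lt_or_ge t 0 with ht | ht
        · rw [hneg t ht]; simp
        · change volume (sec (Dm φ l) t) ≠ ∞
          rw [hsec t ht]
          exact (ac_Dm (orl_succ h) _).compact.measure_lt_top.ne)
      hneg (by rw [A_int hac]; exact hfin)
      (m := fun j t => 2 * ∫⁻ y in sec (Dm φ l) t, ENNReal.ofReal (y j))
      (fun j => (OCore.meas hac.compact.measurableSet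
        (ENNReal.measurable_ofReal.comp (measurable_pi_apply j))).const_mul 2)
      (fun j t ht => hnull t ht j)
      (fun j x y hx hxy => by
        have hy := hx.trans hxy
        have hl : l - φ 0 y ≤ l - φ 0 x := by
          have := h.mono 0 (Set.mem_Ici.2 hx) (Set.mem_Ici.2 hy) hxy
          linarith
        have h2 := Mo_mono (orl_succ h) hl j
        change (2 * ∫⁻ z in sec (Dm φ l) y, ENNReal.ofReal (z j)) * volume (sec (Dm φ l) x) ≤
          (2 * ∫⁻ z in sec (Dm φ l) x, ENNReal.ofReal (z j)) * volume (sec (Dm φ l) y)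
        rw [hsec x hx, hsec y hy, mul_assoc, mul_assoc]
        exact mul_le_mul' le_rfl h2)
      (fun t => by
        rcases lt_or_ge t 0 with ht | ht
        · have h3 : (∏ j : Fin (n + 1),
              (2 * ∫⁻ y in sec (Dm φ l) t, ENNReal.ofReal (y j))) = 0 :=
            Finset.prod_eq_zero (Finset.mem_univ 0) (hnull t (hneg t ht) 0)
          rw [h3]
          exact zero_le
        · have h3 := ih (orl_succ h) (l - φ 0 t)
          have h4 : A (Dm φ l) t = V (fun i : Fin (n + 1) => φ i.succ) (l - φ 0 t) := by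
            change volume (sec (Dm φ l) t) = _
            rw [hsec t ht]
            rfl
          simp only [h4, hsec t ht]
          exact h3)
    have h5 : ∀ j : Fin (n + 1),
        ∫⁻ t, 2 * ∫⁻ y in sec (Dm φ l) t, ENNReal.ofReal (y j) = 2 * Mo φ l j.succ := by
      intro j
      rw [lintegral_const_mul' _ _ (by simp), ← mom_succ hac j]
      rfl
    simp only [h5] at h1
    rw [A_int hac] at h1
    have h6 : 2 * Mo φ l 0 * (∫⁻ t, A (Dm φ l) t ^ 2) ≤ V φ l ^ 3 := lin1_D hac
    rw [Fin.prod_univ_succ]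
    by_cases hV : V φ l = 0
    · have : Mo φ l 0 = 0 := setLIntegral_measure_zero _ _ hV
      rw [this]
      simp
    · have h7 : 2 * Mo φ l 0 * (∏ j : Fin (n + 1), 2 * Mo φ l j.succ) * V φ l ≤
          V φ l ^ (n + 1 + 2) * V φ l := by
        calc 2 * Mo φ l 0 * (∏ j : Fin (n + 1), 2 * Mo φ l j.succ) * V φ l
            = 2 * Mo φ l 0 * ((∏ j : Fin (n + 1), 2 * Mo φ l j.succ) * V φ l) := mul_assoc _ _ _
          _ ≤ 2 * Mo φ l 0 * (V φ l ^ (n + 1) * ∫⁻ t, A (Dm φ l) t ^ 2) := by
              gcongr 2 * Mo φ l 0 * ?_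
              exact h1
          _ = V φ l ^ (n + 1) * (2 * Mo φ l 0 * ∫⁻ t, A (Dm φ l) t ^ 2) := by ring
          _ ≤ V φ l ^ (n + 1) * V φ l ^ 3 := by gcongr
          _ = V φ l ^ (n + 1 + 2) * V φ l := by ring
      exact (ENNReal.mul_le_mul_iff_left hV hfin).1 h7

end Vale.Agent.P254o
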